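import Vale.Agent.P257TW.Main
import Vale.Agent.P251CX.Top

/-!
# P257: Smith-Toda complexes as successive cofibres of `v_k` self maps

The localization of orthogonal spectra at the `π_*`-isomorphisms is one of the pairs `(T, S)`. In
each such pair, for every `n` and every prime `p ≥ 2 ^ (n + 1) + 2` (and for `n ≤ 4`, `p ≥ 11`),
the Brown-Peterson spectrum exists, and there is a tower `S, V(0), …, V(n)` in which `V(k)` is a
finite `p`-local Smith-Toda complex and the cofibre of a self map of `V(k - 1)` which induces the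
multiplication by the Hazewinkel generator `v_k` in `BP`-homology.
-/

namespace Vale.Agent.Results.P257.AAAAAAATower

open Vale.Agent.P251.St (SHCat Susp)
open Vale.Agent.P251CX Vale.Agent.P251CY Vale.Agent.P251CY.V

theorem result : (∃ (T : SHCat) (S : Susp T), Nonempty (IsSH T S.toSuspData)) ∧
    ∀ (T : SHCat) (S : Susp T) (n p : ℕ), p.Prime →
      (2 ^ (n + 1) + 2 ≤ p ∨ (n ≤ 4 ∧ 11 ≤ p)) →
        (∃ (B : RingSp T) (o : Oriented S B) (φ : GHom S p B), IsBrownPeterson p o φ) ∧
          HasTower S p n := by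
  refine ⟨exists_isSH, fun _ S n p hp h => ⟨?_, P257TW.hasTower S n p hp h⟩⟩
  have : Fact p.Prime := ⟨hp⟩
  obtain ⟨B, o, φ, hB⟩ := P257.H702.exists_isBrownPeterson S p
  exact ⟨RingSp.ofOld B, Oriented.ofOld o, GHom.ofOld φ, (isBrownPeterson_iff _ _ _).2 hB⟩

end Vale.Agent.Results.P257.AAAAAAATower
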